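import Mathlib

/-!
# Johnson graph: sharp Poincaré inequality (abstract, Mathlib only)

`K = D.powersetCard s` (the `s`-subsets of a finite set `D`, `t = D.card`).  Two members are
adjacent when they differ by one exchange `A ↦ insert w (A.erase u)` (`u ∈ A`, `w ∈ D \ A`).
`jEnergy D s φ` is the sum of `(φ A - φ A')^2` over ORDERED exchanges (twice the sum over edges).

Main result: `johnson_poincare : 2 * t * (|K| Σ φ² - (Σ φ)²) ≤ |K| * jEnergy D s φ`,
i.e. `Var_K φ ≤ (1/t) (1/|K|) Σ_edges (dφ)²` (spectral gap `t` of the Johnson graph).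

Proof: induction on `s` through the down operator `down D φ B = Σ_{x ∉ B} φ (B + x)`.
-/

set_option autoImplicit false

namespace Crest.Agent.Helper59.SW

open Finset

variable {α : Type*} [DecidableEq α]

/-- Ordered exchange energy on the `s`-subsets of `D` (twice the sum over Johnson edges). -/
def jEnergy (D : Finset α) (s : ℕ) (φ : Finset α → ℝ) : ℝ :=
  ∑ A ∈ D.powersetCard s, ∑ u ∈ A, ∑ w ∈ D \ A, (φ A - φ (insert w (A.erase u))) ^ 2

/-- Unnormalised variance `|K| Σ φ² - (Σ φ)²` on the `s`-subsets of `D`. -/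
def jVar (D : Finset α) (s : ℕ) (φ : Finset α → ℝ) : ℝ :=
  ((D.powersetCard s).card : ℝ) * ∑ A ∈ D.powersetCard s, φ A ^ 2 -
    (∑ A ∈ D.powersetCard s, φ A) ^ 2

/-- The down sum: `Σ_{x ∈ D \ B} φ (B + x)`. -/
def down (D : Finset α) (φ : Finset α → ℝ) (B : Finset α) : ℝ :=
  ∑ x ∈ D \ B, φ (insert x B)

theorem jEnergy_nonneg (D : Finset α) (s : ℕ) (φ : Finset α → ℝ) : 0 ≤ jEnergy D s φ := by
  unfold jEnergy
  exact Finset.sum_nonneg fun A _ => Finset.sum_nonneg fun u _ =>
    Finset.sum_nonneg fun w _ => sq_nonneg _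

/-- Double counting between `s`-subsets with an outside point and `(s+1)`-subsets with an
inside point. -/
theorem sum_up (D : Finset α) (s : ℕ) (H : Finset α → α → ℝ) :
    ∑ B ∈ D.powersetCard s, ∑ x ∈ D \ B, H B x
      = ∑ A ∈ D.powersetCard (s + 1), ∑ u ∈ A, H (A.erase u) u := by
  rw [Finset.sum_sigma', Finset.sum_sigma']
  refine Finset.sum_bij' (fun p _ => ⟨insert p.2 p.1, p.2⟩) (fun q _ => ⟨q.1.erase q.2, q.2⟩)
    ?_ ?_ ?_ ?_ ?_
  · rintro ⟨B, x⟩ h
    simp only [Finset.mem_sigma, Finset.mem_powersetCard, Finset.mem_sdiff] at h ⊢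
    obtain ⟨⟨hBD, hBc⟩, hxD, hxB⟩ := h
    refine ⟨⟨Finset.insert_subset hxD hBD, ?_⟩, Finset.mem_insert_self _ _⟩
    rw [Finset.card_insert_of_notMem hxB, hBc]
  · rintro ⟨A, u⟩ h
    simp only [Finset.mem_sigma, Finset.mem_powersetCard, Finset.mem_sdiff] at h ⊢
    obtain ⟨⟨hAD, hAc⟩, huA⟩ := h
    refine ⟨⟨(Finset.erase_subset _ _).trans hAD, ?_⟩, hAD huA, Finset.notMem_erase _ _⟩
    rw [Finset.card_erase_of_mem huA, hAc]
    rfl
  · rintro ⟨B, x⟩ h
    simp only [Finset.mem_sigma, Finset.mem_powersetCard, Finset.mem_sdiff] at h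
    obtain ⟨-, -, hxB⟩ := h
    simp [Finset.erase_insert hxB]
  · rintro ⟨A, u⟩ h
    simp only [Finset.mem_sigma, Finset.mem_powersetCard] at h
    obtain ⟨-, huA⟩ := h
    simp [Finset.insert_erase huA]
  · rintro ⟨B, x⟩ h
    simp only [Finset.mem_sigma, Finset.mem_powersetCard, Finset.mem_sdiff] at h
    obtain ⟨-, -, hxB⟩ := h
    simp [Finset.erase_insert hxB]


theorem card_up (D : Finset α) (s : ℕ) (hs : s ≤ D.card) :
    ((D.powersetCard s).card : ℝ) * ((D.card : ℝ) - s)
      = ((D.powersetCard (s + 1)).card : ℝ) * ((s : ℝ) + 1) := by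
  have h := sum_up D s (fun _ _ => (1 : ℝ))
  have h1 : ∀ B ∈ D.powersetCard s, ∑ x ∈ D \ B, (1 : ℝ) = (D.card : ℝ) - s := by
    intro B hB
    rw [Finset.mem_powersetCard] at hB
    rw [Finset.sum_const, nsmul_eq_mul, mul_one, Finset.card_sdiff_of_subset hB.1, hB.2,
      Nat.cast_sub hs]
  have h2 : ∀ A ∈ D.powersetCard (s + 1), ∑ u ∈ A, (1 : ℝ) = (s : ℝ) + 1 := by
    intro A hA
    rw [Finset.mem_powersetCard] at hA
    rw [Finset.sum_const, nsmul_eq_mul, mul_one, hA.2]
    push_cast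
    ring
  rw [Finset.sum_congr rfl h1, Finset.sum_congr rfl h2, Finset.sum_const, Finset.sum_const,
    nsmul_eq_mul, nsmul_eq_mul] at h
  exact h

/-- `Σ_{x ≠ y} (a x - a y)² = 2 (|S| Σ a² - (Σ a)²)`. -/
theorem sum_pair_sq (S : Finset α) (a : α → ℝ) :
    ∑ x ∈ S, ∑ y ∈ S.erase x, (a x - a y) ^ 2
      = 2 * ((S.card : ℝ) * ∑ x ∈ S, a x ^ 2 - (∑ x ∈ S, a x) ^ 2) := by
  have h1 : ∀ x ∈ S, ∑ y ∈ S.erase x, (a x - a y) ^ 2
      = (S.card : ℝ) * a x ^ 2 - 2 * a x * ∑ y ∈ S, a y + ∑ y ∈ S, a y ^ 2 := by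
    intro x hx
    rw [Finset.sum_erase_eq_sub hx]
    simp only [sub_sq, Finset.sum_add_distrib, Finset.sum_sub_distrib, Finset.sum_const,
      nsmul_eq_mul, ← Finset.mul_sum]
    ring
  rw [Finset.sum_congr rfl h1, Finset.sum_add_distrib, Finset.sum_sub_distrib, ← Finset.mul_sum,
    ← Finset.sum_mul, ← Finset.mul_sum, Finset.sum_const, nsmul_eq_mul]
  ring

theorem sdiff_erase_erase {D A : Finset α} {u : α} (hu : u ∈ A) :
    (D \ A.erase u).erase u = D \ A := by
  ext z
  simp only [Finset.mem_erase, Finset.mem_sdiff, not_and]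
  constructor
  · rintro ⟨hzu, hzD, h⟩
    exact ⟨hzD, fun hzA => h hzu hzA⟩
  · rintro ⟨hzD, hzA⟩
    exact ⟨fun h => hzA (h ▸ hu), hzD, fun _ hz => hzA hz⟩

/-- `Σ_B down(B) = (s+1) Σ_A φ(A)`. -/
theorem sum_down (D : Finset α) (s : ℕ) (φ : Finset α → ℝ) :
    ∑ B ∈ D.powersetCard s, down D φ B = ((s : ℝ) + 1) * ∑ A ∈ D.powersetCard (s + 1), φ A := by
  unfold down
  rw [sum_up D s (fun B x => φ (insert x B)), Finset.mul_sum]
  refine Finset.sum_congr rfl fun A hA => ?_
  rw [Finset.mem_powersetCard] at hA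
  have : ∀ u ∈ A, φ (insert u (A.erase u)) = φ A := fun u hu => by rw [Finset.insert_erase hu]
  rw [Finset.sum_congr rfl this, Finset.sum_const, nsmul_eq_mul, hA.2]
  push_cast
  ring

/-- `Σ_B Σ_{x ∉ B} φ(B+x)² = (s+1) Σ_A φ(A)²`. -/
theorem sum_down_sq (D : Finset α) (s : ℕ) (φ : Finset α → ℝ) :
    ∑ B ∈ D.powersetCard s, ∑ x ∈ D \ B, φ (insert x B) ^ 2
      = ((s : ℝ) + 1) * ∑ A ∈ D.powersetCard (s + 1), φ A ^ 2 := by
  rw [sum_up D s (fun B x => φ (insert x B) ^ 2), Finset.mul_sum]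
  refine Finset.sum_congr rfl fun A hA => ?_
  rw [Finset.mem_powersetCard] at hA
  have : ∀ u ∈ A, φ (insert u (A.erase u)) ^ 2 = φ A ^ 2 := fun u hu => by
    rw [Finset.insert_erase hu]
  rw [Finset.sum_congr rfl this, Finset.sum_const, nsmul_eq_mul, hA.2]
  push_cast
  ring

/-- The energy at level `s+1` as the sum of the fibre variances of the down map. -/
theorem jEnergy_succ_eq (D : Finset α) (s : ℕ) (hs : s ≤ D.card) (φ : Finset α → ℝ) :
    jEnergy D (s + 1) φ
      = 2 * (((D.card : ℝ) - s) * (((s : ℝ) + 1) * ∑ A ∈ D.powersetCard (s + 1), φ A ^ 2)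
          - ∑ B ∈ D.powersetCard s, down D φ B ^ 2) := by
  have h := sum_up D s
    (fun B x => ∑ y ∈ (D \ B).erase x, (φ (insert x B) - φ (insert y B)) ^ 2)
  have hR : ∑ A ∈ D.powersetCard (s + 1), ∑ u ∈ A,
      ∑ y ∈ (D \ A.erase u).erase u, (φ (insert u (A.erase u)) - φ (insert y (A.erase u))) ^ 2
      = jEnergy D (s + 1) φ := by
    unfold jEnergy
    refine Finset.sum_congr rfl fun A _ => Finset.sum_congr rfl fun u hu => ?_
    rw [sdiff_erase_erase hu, Finset.insert_erase hu]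
  have hL : ∑ B ∈ D.powersetCard s, ∑ x ∈ D \ B,
      ∑ y ∈ (D \ B).erase x, (φ (insert x B) - φ (insert y B)) ^ 2
      = ∑ B ∈ D.powersetCard s,
          2 * (((D.card : ℝ) - s) * ∑ x ∈ D \ B, φ (insert x B) ^ 2 - down D φ B ^ 2) := by
    refine Finset.sum_congr rfl fun B hB => ?_
    rw [Finset.mem_powersetCard] at hB
    rw [sum_pair_sq (D \ B) (fun x => φ (insert x B)), Finset.card_sdiff_of_subset hB.1, hB.2,
      Nat.cast_sub hs]
    rfl
  rw [← hR, ← h, hL, ← Finset.mul_sum, Finset.sum_sub_distrib, ← Finset.mul_sum, sum_down_sq]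


/-- Law of total variance along the down map. -/
theorem jVar_succ (D : Finset α) (s : ℕ) (hs : s ≤ D.card) (φ : Finset α → ℝ) :
    ((s : ℝ) + 1) ^ 2 * jVar D (s + 1) φ
      = jVar D s (down D φ) + ((D.powersetCard s).card : ℝ) / 2 * jEnergy D (s + 1) φ := by
  have hc := card_up D s hs
  have hE := jEnergy_succ_eq D s hs φ
  have hd := sum_down D s φ
  unfold jVar
  rw [hd, hE]
  set N : ℝ := ((D.powersetCard s).card : ℝ)
  set N' : ℝ := ((D.powersetCard (s + 1)).card : ℝ)
  set X : ℝ := ∑ A ∈ D.powersetCard (s + 1), φ A ^ 2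
  set Y : ℝ := ∑ A ∈ D.powersetCard (s + 1), φ A
  set Z : ℝ := ∑ B ∈ D.powersetCard s, down D φ B ^ 2
  have : N * ((D.card : ℝ) - s) * (((s : ℝ) + 1) * X) = N' * ((s : ℝ) + 1) * (((s : ℝ) + 1) * X) := by
    rw [hc]
  linear_combination (-1 : ℝ) * this

/-- The down sum of an exchanged set. -/
theorem down_sub (D : Finset α) (φ : Finset α → ℝ) {B : Finset α} (hB : B ⊆ D) {u w : α}
    (hu : u ∈ B) (hw : w ∈ D \ B) :
    down D φ B - down D φ (insert w (B.erase u))
      = ∑ x ∈ (D \ B).erase w, (φ (insert x B) - φ (insert w ((insert x B).erase u))) := by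
  have hwD : w ∈ D := (Finset.mem_sdiff.mp hw).1
  have hwB : w ∉ B := (Finset.mem_sdiff.mp hw).2
  have huw : u ≠ w := fun h => hwB (h ▸ hu)
  have h1 : down D φ B = φ (insert w B) + ∑ x ∈ (D \ B).erase w, φ (insert x B) := by
    unfold down
    exact (Finset.add_sum_erase (D \ B) (fun x => φ (insert x B)) hw).symm
  have hset : D \ insert w (B.erase u) = insert u ((D \ B).erase w) := by
    ext z
    simp only [Finset.mem_sdiff, Finset.mem_insert, Finset.mem_erase, not_or, not_and]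
    constructor
    · rintro ⟨hzD, hzw, hz⟩
      by_cases hzu : z = u
      · exact Or.inl hzu
      · exact Or.inr ⟨hzw, hzD, fun hzB => hz hzu hzB⟩
    · rintro (rfl | ⟨hzw, hzD, hzB⟩)
      · exact ⟨hB hu, huw, fun h => absurd rfl h⟩
      · exact ⟨hzD, hzw, fun _ h => hzB h⟩
  have hnot : u ∉ (D \ B).erase w := by
    simp only [Finset.mem_erase, Finset.mem_sdiff, not_and, not_not]
    exact fun _ _ => hu
  have h2 : down D φ (insert w (B.erase u))
      = φ (insert w B) + ∑ x ∈ (D \ B).erase w, φ (insert w ((insert x B).erase u)) := by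
    unfold down
    rw [hset, Finset.sum_insert hnot]
    congr 1
    · congr 1
      rw [Finset.insert_comm, Finset.insert_erase hu]
    · refine Finset.sum_congr rfl fun x hx => ?_
      have hxB : x ∉ B := (Finset.mem_sdiff.mp (Finset.mem_of_mem_erase hx)).2
      have hxu : x ≠ u := fun h => hxB (h ▸ hu)
      rw [Finset.insert_comm, Finset.erase_insert_of_ne hxu]
  rw [h1, h2, Finset.sum_sub_distrib]
  ring


theorem sum_erase_comm (S : Finset α) (F : α → α → ℝ) :
    ∑ w ∈ S, ∑ x ∈ S.erase w, F w x = ∑ x ∈ S, ∑ w ∈ S.erase x, F w x := by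
  refine Finset.sum_comm' fun w x => ?_
  simp only [Finset.mem_erase]
  constructor
  · rintro ⟨hw, hxw, hx⟩
    exact ⟨⟨fun h => hxw h.symm, hw⟩, hx⟩
  · rintro ⟨⟨hwx, hw⟩, hx⟩
    exact ⟨hw, fun h => hwx h.symm, hx⟩

/-- Reindexing the fourfold sum of the energy comparison. -/
theorem sum_exch (D : Finset α) (s : ℕ) (G : Finset α → α → α → ℝ) :
    ∑ B ∈ D.powersetCard s, ∑ u ∈ B, ∑ w ∈ D \ B, ∑ x ∈ (D \ B).erase w, G (insert x B) u w
      = (s : ℝ) * ∑ A ∈ D.powersetCard (s + 1), ∑ u ∈ A, ∑ w ∈ D \ A, G A u w := by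
  have h1 : ∀ B ∈ D.powersetCard s,
      ∑ u ∈ B, ∑ w ∈ D \ B, ∑ x ∈ (D \ B).erase w, G (insert x B) u w
        = ∑ x ∈ D \ B, ∑ u ∈ B, ∑ w ∈ (D \ B).erase x, G (insert x B) u w := by
    intro B _
    have h0 : ∀ u ∈ B, ∑ w ∈ D \ B, ∑ x ∈ (D \ B).erase w, G (insert x B) u w
        = ∑ x ∈ D \ B, ∑ w ∈ (D \ B).erase x, G (insert x B) u w := fun u _ =>
      sum_erase_comm (D \ B) (fun w x => G (insert x B) u w)
    rw [Finset.sum_congr rfl h0, Finset.sum_comm]
  rw [Finset.sum_congr rfl h1,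
    sum_up D s (fun B x => ∑ u ∈ B, ∑ w ∈ (D \ B).erase x, G (insert x B) u w), Finset.mul_sum]
  refine Finset.sum_congr rfl fun A hA => ?_
  rw [Finset.mem_powersetCard] at hA
  have h2 : ∀ x ∈ A, ∑ u ∈ A.erase x, ∑ w ∈ (D \ A.erase x).erase x,
      G (insert x (A.erase x)) u w = ∑ u ∈ A.erase x, ∑ w ∈ D \ A, G A u w := by
    intro x hx
    rw [sdiff_erase_erase hx, Finset.insert_erase hx]
  rw [Finset.sum_congr rfl h2, sum_erase_comm A (fun x u => ∑ w ∈ D \ A, G A u w), Finset.mul_sum]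
  refine Finset.sum_congr rfl fun u hu => ?_
  rw [Finset.sum_const, nsmul_eq_mul, Finset.card_erase_of_mem hu, hA.2]
  simp

/-- The down map contracts the exchange energy. -/
theorem jEnergy_down_le (D : Finset α) (s : ℕ) (hs : s + 1 ≤ D.card) (φ : Finset α → ℝ) :
    jEnergy D s (down D φ) ≤ ((D.card : ℝ) - s - 1) * ((s : ℝ) * jEnergy D (s + 1) φ) := by
  have key : ∀ B ∈ D.powersetCard s, ∀ u ∈ B, ∀ w ∈ D \ B,
      (down D φ B - down D φ (insert w (B.erase u))) ^ 2
        ≤ ((D.card : ℝ) - s - 1) * ∑ x ∈ (D \ B).erase w,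
            (φ (insert x B) - φ (insert w ((insert x B).erase u))) ^ 2 := by
    intro B hB u hu w hw
    rw [Finset.mem_powersetCard] at hB
    rw [down_sub D φ hB.1 hu hw]
    have hcard : (((D \ B).erase w).card : ℝ) = (D.card : ℝ) - s - 1 := by
      rw [Finset.card_erase_of_mem hw, Finset.card_sdiff_of_subset hB.1, hB.2]
      have h1 : 1 ≤ D.card - s := by omega
      rw [Nat.cast_sub h1, Nat.cast_sub (by omega)]
      simp
    rw [← hcard]
    exact sq_sum_le_card_mul_sum_sq
  calc jEnergy D s (down D φ)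
      ≤ ∑ B ∈ D.powersetCard s, ∑ u ∈ B, ∑ w ∈ D \ B, ((D.card : ℝ) - s - 1) *
          ∑ x ∈ (D \ B).erase w, (φ (insert x B) - φ (insert w ((insert x B).erase u))) ^ 2 := by
        unfold jEnergy
        exact Finset.sum_le_sum fun B hB => Finset.sum_le_sum fun u hu =>
          Finset.sum_le_sum fun w hw => key B hB u hu w hw
    _ = ((D.card : ℝ) - s - 1) * ∑ B ∈ D.powersetCard s, ∑ u ∈ B, ∑ w ∈ D \ B,
          ∑ x ∈ (D \ B).erase w, (φ (insert x B) - φ (insert w ((insert x B).erase u))) ^ 2 := by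
        simp only [Finset.mul_sum]
    _ = ((D.card : ℝ) - s - 1) * ((s : ℝ) * jEnergy D (s + 1) φ) := by
        rw [sum_exch D s (fun A u w => (φ A - φ (insert w (A.erase u))) ^ 2)]
        rfl

/-- **Sharp Poincaré inequality on the Johnson graph** `J(D, s)`:
`2 t (|K| Σ φ² - (Σ φ)²) ≤ |K| * jEnergy`, i.e. `Var φ ≤ (1/t) (1/|K|) Σ_edges (dφ)²`. -/
theorem johnson_poincare_jVar (D : Finset α) (s : ℕ) :
    ∀ φ : Finset α → ℝ,
      2 * (D.card : ℝ) * jVar D s φ ≤ ((D.powersetCard s).card : ℝ) * jEnergy D s φ := by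
  induction s with
  | zero =>
      intro φ
      have h0 : jVar D 0 φ = 0 := by
        unfold jVar
        simp
      rw [h0, mul_zero]
      exact mul_nonneg (Nat.cast_nonneg _) (jEnergy_nonneg D 0 φ)
  | succ s ih =>
      intro φ
      by_cases hs : s + 1 ≤ D.card
      · have hs' : s ≤ D.card := by omega
        have hc := card_up D s hs'
        have hv := jVar_succ D s hs' φ
        have he := jEnergy_down_le D s hs φ
        have hi := ih (down D φ)
        have hE := jEnergy_nonneg D (s + 1) φ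
        set N : ℝ := ((D.powersetCard s).card : ℝ) with hN
        set N' : ℝ := ((D.powersetCard (s + 1)).card : ℝ) with hN'
        set t : ℝ := (D.card : ℝ) with ht
        set E : ℝ := jEnergy D (s + 1) φ with hEdef
        have hNnn : 0 ≤ N := Nat.cast_nonneg _
        have hspos : (0 : ℝ) < (s : ℝ) + 1 := by positivity
        have htnn : 0 ≤ t := Nat.cast_nonneg _
        -- 2 t (s+1)^2 V' = 2 t V(Ψ) + t N E ≤ N ((t-s-1) s + t) E = N (s+1)(t-s) E = N' (s+1)^2 E
        have h1 : 2 * t * (((s : ℝ) + 1) ^ 2 * jVar D (s + 1) φ)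
            ≤ N * ((t - s - 1) * ((s : ℝ) * E)) + t * N * E := by
          rw [hv]
          have := mul_le_mul_of_nonneg_left he hNnn
          nlinarith [hi, this]
        have h2 : N * ((t - s - 1) * ((s : ℝ) * E)) + t * N * E
            = ((s : ℝ) + 1) ^ 2 * (N' * E) := by
          have : N * (t - s) * (((s : ℝ) + 1) * E) = N' * ((s : ℝ) + 1) * (((s : ℝ) + 1) * E) := by
            rw [hc]
          linear_combination this
        rw [h2] at h1
        have h3 : ((s : ℝ) + 1) ^ 2 * (2 * t * jVar D (s + 1) φ) ≤ ((s : ℝ) + 1) ^ 2 * (N' * E) := by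
          linarith [h1]
        exact le_of_mul_le_mul_left h3 (by positivity)
      · have hemp : D.powersetCard (s + 1) = ∅ := by
          rw [Finset.powersetCard_eq_empty]
          omega
        unfold jVar
        rw [hemp]
        simp


/-- `johnson_poincare_jVar` with the variance written out. -/
theorem johnson_poincare (D : Finset α) (s : ℕ) (φ : Finset α → ℝ) :
    2 * (D.card : ℝ) * (((D.powersetCard s).card : ℝ) * ∑ A ∈ D.powersetCard s, φ A ^ 2
        - (∑ A ∈ D.powersetCard s, φ A) ^ 2)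
      ≤ ((D.powersetCard s).card : ℝ) * jEnergy D s φ :=
  johnson_poincare_jVar D s φ

omit [DecidableEq α] in
/-- Sum of squared deviations from the class mean, for any finite set. -/
theorem sum_sub_avg_sq (K : Finset (Finset α)) (φ : Finset α → ℝ) :
    (K.card : ℝ) * ∑ A ∈ K, (φ A - (∑ B ∈ K, φ B) / K.card) ^ 2
      = (K.card : ℝ) * ∑ A ∈ K, φ A ^ 2 - (∑ A ∈ K, φ A) ^ 2 := by
  rcases K.eq_empty_or_nonempty with rfl | hK
  · simp
  · have hpos : (0 : ℝ) < (K.card : ℝ) := by exact_mod_cast Finset.card_pos.mpr hK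
    set m : ℝ := (∑ B ∈ K, φ B) / K.card with hm
    have hsum : ∑ B ∈ K, φ B = (K.card : ℝ) * m := by
      rw [hm]
      field_simp
    have h1 : ∑ A ∈ K, (φ A - m) ^ 2
        = ∑ A ∈ K, φ A ^ 2 - 2 * m * ∑ A ∈ K, φ A + (K.card : ℝ) * m ^ 2 := by
      simp only [sub_sq, Finset.sum_add_distrib, Finset.sum_sub_distrib, Finset.sum_const,
        nsmul_eq_mul]
      rw [Finset.sum_congr rfl fun A _ => mul_assoc 2 (φ A) m, ← Finset.mul_sum, ← Finset.sum_mul]
      ring
    rw [h1, hsum]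
    ring

/-- **Class form**: the sum of squared deviations from the mean over the `s`-subsets of `D` is at
most `jEnergy / (2 t)` (`t = D.card`). -/
theorem johnson_poincare' (D : Finset α) (s : ℕ) (φ : Finset α → ℝ) :
    ∑ A ∈ D.powersetCard s,
        (φ A - (∑ B ∈ D.powersetCard s, φ B) / ((D.powersetCard s).card : ℝ)) ^ 2
      ≤ jEnergy D s φ / (2 * (D.card : ℝ)) := by
  have hE := jEnergy_nonneg D s φ
  rcases (D.powersetCard s).eq_empty_or_nonempty with hK | hK
  · rw [hK]
    simp only [Finset.sum_empty]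
    positivity
  · have hKpos : (0 : ℝ) < ((D.powersetCard s).card : ℝ) := by
      exact_mod_cast Finset.card_pos.mpr hK
    have hmain := johnson_poincare D s φ
    rw [← sum_sub_avg_sq (D.powersetCard s) φ] at hmain
    set V : ℝ := ∑ A ∈ D.powersetCard s,
        (φ A - (∑ B ∈ D.powersetCard s, φ B) / ((D.powersetCard s).card : ℝ)) ^ 2 with hV
    have hVnn : 0 ≤ V := Finset.sum_nonneg fun A _ => sq_nonneg _
    rcases Nat.eq_zero_or_pos D.card with ht | ht
    · -- `D = ∅`: the only subset is `∅`, the deviation vanishes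
      have hD : D = ∅ := Finset.card_eq_zero.mp ht
      have hsub : D.powersetCard s ⊆ {∅} := by
        intro A hA
        rw [Finset.mem_powersetCard, hD, Finset.subset_empty] at hA
        exact Finset.mem_singleton.mpr hA.1
      have hne : D.powersetCard s = {∅} := by
        obtain ⟨A, hA⟩ := hK
        have hA' := Finset.mem_singleton.mp (hsub hA)
        refine Finset.Subset.antisymm hsub ?_
        intro B hB
        rw [Finset.mem_singleton] at hB
        rw [hB, ← hA']
        exact hA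
      have hV0 : V = 0 := by
        rw [hV, hne]
        simp
      rw [hV0]
      positivity
    · have htpos : (0 : ℝ) < (D.card : ℝ) := by exact_mod_cast ht
      rw [le_div_iff₀ (by positivity)]
      have : ((D.powersetCard s).card : ℝ) * (V * (2 * (D.card : ℝ)))
          ≤ ((D.powersetCard s).card : ℝ) * jEnergy D s φ := by
        calc ((D.powersetCard s).card : ℝ) * (V * (2 * (D.card : ℝ)))
            = 2 * (D.card : ℝ) * (((D.powersetCard s).card : ℝ) * V) := by ring
          _ ≤ _ := hmain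
      exact le_of_mul_le_mul_left this hKpos

/-- Weak form without `t`: the sum of squared deviations is at most `jEnergy / 2`. -/
theorem johnson_poincare_half (D : Finset α) (s : ℕ) (φ : Finset α → ℝ) :
    ∑ A ∈ D.powersetCard s,
        (φ A - (∑ B ∈ D.powersetCard s, φ B) / ((D.powersetCard s).card : ℝ)) ^ 2
      ≤ jEnergy D s φ / 2 := by
  have h := johnson_poincare' D s φ
  have hE := jEnergy_nonneg D s φ
  rcases Nat.eq_zero_or_pos D.card with ht | ht
  · rw [ht] at h
    simp only [Nat.cast_zero, mul_zero, div_zero] at h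
    linarith
  · have h1 : (1 : ℝ) ≤ (D.card : ℝ) := by exact_mod_cast ht
    refine h.trans ?_
    rw [div_le_div_iff₀ (by positivity) (by norm_num)]
    nlinarith

end Crest.Agent.Helper59.SW
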